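import Vale.Agent.Lib.P058.Ramsey.QuadKite

/-!
# P058: Ramsey and subtransitive right kites

The right kite `kite u` (`0 < u < 1`) is the cyclic quadrilateral formed by a diameter of the unit
circle and the chord perpendicular to it through the point dividing the diameter in the ratio
`u : 1 - u`.

* If `u` and `u'` in `(0,1)` are the two roots of a quadratic polynomial with rational coefficients
  (for instance `u = u'` rational), the kite is Ramsey and subtransitive.
* For transcendental `u`, and for algebraic `u` having a real conjugate outside `[0,1]`, the kite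
  is not subtransitive.
* Every subtransitive right kite with parameter of degree at most two is Ramsey.
-/

namespace Vale.Agent.Results.P058.A_KiteDichotomy

open Vale.Agent.P058

theorem result :
    (∀ (u u' : ℝ) (s r : ℚ), 0 < u → u < 1 → 0 < u' → u' < 1 → u + u' = s → u * u' = r →
      IsRamsey (kite u) ∧ IsSubtransitive (kite u)) ∧
    (∀ u : ℝ, 0 < u → u < 1 → Transcendental ℚ u → ¬ IsSubtransitive (kite u)) ∧
    (∀ u u' : ℝ, 0 < u → u < 1 → IsAlgebraic ℚ u →
      Polynomial.aeval u' (minpoly ℚ u) = 0 → (u' < 0 ∨ 1 < u') →
      ¬ IsSubtransitive (kite u)) ∧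
    (∀ (u : ℝ) (s r : ℚ), 0 < u → u < 1 → u ^ 2 - s * u + r = 0 →
      IsSubtransitive (kite u) → IsRamsey (kite u)) :=
  ⟨fun u u' s r h0 h1 h0' h1' hs hr => kite_quad_pos u u' s r h0 h1 h0' h1' hs hr,
    kite_not_subtransitive_of_transcendental,
    fun u u' h0 h1 ha hr hu' => kite_not_subtransitive_of_conjugate u u' h0 h1 ha hr hu',
    fun u s r h0 h1 hroot hsub => kite_quad_lrw u s r h0 h1 hroot hsub⟩

end Vale.Agent.Results.P058.A_KiteDichotomy
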