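import Vale.Agent.Lib.P058.Ramsey.QuadKite

/-!
# P058: right kites whose parameter has degree at most two over the rationals

The right kite `kite u` (`0 < u < 1`) is the cyclic quadrilateral formed by a diameter of the unit
circle and the chord perpendicular to it through the point dividing the diameter in the ratio
`u : 1 - u`.  Let `u` be a root of `X ^ 2 - s X + r` with `s, r` rational and let `u'` be the other
root.

* If `u'` lies in `(0,1)`, the kite is Ramsey and subtransitive.
* If `u` is irrational, the kite is subtransitive exactly if `u'` lies in `(0,1)`.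
* Hence every subtransitive right kite with parameter of degree at most two is Ramsey.
-/

namespace Vale.Agent.Results.P058.A_QuadraticKites

open Vale.Agent.P058

theorem result :
    (∀ (u u' : ℝ) (s r : ℚ), 0 < u → u < 1 → u + u' = s → u * u' = r →
      ((0 < u' ∧ u' < 1) → IsRamsey (kite u) ∧ IsSubtransitive (kite u)) ∧
      (Irrational u → (IsSubtransitive (kite u) ↔ (0 < u' ∧ u' < 1)))) ∧
    (∀ (u : ℝ) (s r : ℚ), 0 < u → u < 1 → u ^ 2 - s * u + r = 0 →
      IsSubtransitive (kite u) → IsRamsey (kite u)) :=
  ⟨fun u u' s r h0 h1 hs hr =>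
    ⟨fun h => kite_quad_pos u u' s r h0 h1 h.1 h.2 hs hr,
      fun hirr => kite_quad_iff u u' s r h0 h1 hs hr hirr⟩,
    fun u s r h0 h1 hroot hsub => kite_quad_lrw u s r h0 h1 hroot hsub⟩

end Vale.Agent.Results.P058.A_QuadraticKites
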