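import Vale.Agent.Lib.P058.Obstruction

/-!
# P058: a conjugation obstruction to subtransitivity

Let `p i` be finitely many distinct points with an affine dependency `∑ μ i • p i = 0`,
`∑ μ i = 0`, whose coefficients lie in a subfield `F` of `ℝ`.  If some field embedding
`σ : F → ℝ` turns the coefficients into a vector with exactly one negative entry (all others
being nonnegative), then the point set is not subtransitive.
-/

namespace Vale.Agent.Results.P058.ConjugateObstruction

open Vale.Agent.P058

theorem result {d : ℕ} {ι : Type} [Fintype ι] (p : ι → E d)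
    (hp : Function.Injective p) (F : Subfield ℝ) (σ : F →+* ℝ) (μ : ι → F)
    (hsum : ∑ i, μ i = 0) (hdep : ∑ i, (μ i : ℝ) • p i = 0) (i₀ : ι)
    (hneg : σ (μ i₀) < 0) (hpos : ∀ i, i ≠ i₀ → 0 ≤ σ (μ i)) :
    ¬ IsSubtransitive (Set.range p) :=
  not_subtransitive_of_conjugate p hp F σ μ hsum hdep i₀ hneg hpos

end Vale.Agent.Results.P058.ConjugateObstruction
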