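import Vale.Agent.Results.P058.A_CyclicQuadBoth
import Vale.Agent.Results.P058.A_KiteDichotomy
import Vale.Agent.Results.P058.A_QuadraticKites
import Vale.Agent.Results.P058.ConjugateObstruction

/-!
# P058: Ramsey and subtransitive cyclic quadrilaterals, in one statement

1. Cyclic quadrilaterals whose diagonals cut each other in rational ratios and whose opposite
   sides (oriented along the boundary) make obtuse angles are Ramsey and subtransitive.
2. Right kites `kite u` with `u` a root of a rational quadratic with other root `u'`: if `u'` lies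
   in `(0,1)` the kite is Ramsey and subtransitive; for irrational `u` the kite is subtransitive
   exactly if `u'` lies in `(0,1)`.
3. Every subtransitive right kite with parameter of degree at most two is Ramsey.
4. Right kites with transcendental parameter are not subtransitive.
5. Right kites with an algebraic parameter having a real conjugate outside `[0,1]` are not
   subtransitive.
6. The conjugation obstruction to subtransitivity for arbitrary finite point sets.
-/

namespace Vale.Agent.Results.P058.A_Combined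

open Vale.Agent.P058

theorem result :
    (∀ (d : ℕ) (A B C D O : E d) (p q r s : ℕ), 0 < p → 0 < q → 0 < r → 0 < s →
      dist A O = dist B O → dist C O = dist B O → dist D O = dist B O →
      ((p : ℝ) / (p + q)) • A + ((q : ℝ) / (p + q)) • B
        = ((r : ℝ) / (r + s)) • C + ((s : ℝ) / (r + s)) • D →
      inner ℝ (A - C) (B - D) < 0 → inner ℝ (A - D) (B - C) < 0 →
      IsRamsey ({A, B, C, D} : Set (E d)) ∧ IsSubtransitive ({A, B, C, D} : Set (E d))) ∧
    (∀ (u u' : ℝ) (s r : ℚ), 0 < u → u < 1 → u + u' = s → u * u' = r →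
      ((0 < u' ∧ u' < 1) → IsRamsey (kite u) ∧ IsSubtransitive (kite u)) ∧
      (Irrational u → (IsSubtransitive (kite u) ↔ (0 < u' ∧ u' < 1)))) ∧
    (∀ (u : ℝ) (s r : ℚ), 0 < u → u < 1 → u ^ 2 - s * u + r = 0 →
      IsSubtransitive (kite u) → IsRamsey (kite u)) ∧
    (∀ u : ℝ, 0 < u → u < 1 → Transcendental ℚ u → ¬ IsSubtransitive (kite u)) ∧
    (∀ u u' : ℝ, 0 < u → u < 1 → IsAlgebraic ℚ u →
      Polynomial.aeval u' (minpoly ℚ u) = 0 → (u' < 0 ∨ 1 < u') →
      ¬ IsSubtransitive (kite u)) ∧
    (∀ (d : ℕ) (ι : Type) [Fintype ι] (p : ι → E d), Function.Injective p →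
      ∀ (F : Subfield ℝ) (σ : F →+* ℝ) (μ : ι → F),
      ∑ i, μ i = 0 → ∑ i, (μ i : ℝ) • p i = 0 → ∀ i₀ : ι,
      σ (μ i₀) < 0 → (∀ i, i ≠ i₀ → 0 ≤ σ (μ i)) →
      ¬ IsSubtransitive (Set.range p)) :=
  ⟨fun _ A B C D O p q r s hp hq hr hs hA hC hD hdep h1 h2 =>
      Vale.Agent.Results.P058.A_CyclicQuadBoth.result A B C D O p q r s hp hq hr hs hA hC hD
        hdep h1 h2,
    Vale.Agent.Results.P058.A_QuadraticKites.result.1,
    Vale.Agent.Results.P058.A_QuadraticKites.result.2,
    Vale.Agent.Results.P058.A_KiteDichotomy.result.2.1,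
    Vale.Agent.Results.P058.A_KiteDichotomy.result.2.2.1,
    fun _ _ _ p hp F σ μ hsum hdep i₀ hneg hpos =>
      Vale.Agent.Results.P058.ConjugateObstruction.result p hp F σ μ hsum hdep i₀ hneg hpos⟩

end Vale.Agent.Results.P058.A_Combined
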