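import Vale.Agent.Lib.P058.Quad.Gen
import Vale.Agent.Lib.P058.KiteNeg

/-!
# P058: Ramsey and subtransitive cyclic quadrilaterals, in one statement (general ratios)

(1) cyclic quadrilaterals whose diagonal ratios `x`, `y` have `x y` and `x / y` rational and whose
opposite sides make obtuse angles are Ramsey and subtransitive; (2), (3) right kites with
parameter of degree at most two; (4) kites with transcendental parameter are not subtransitive;
(5) the conjugation obstruction to subtransitivity.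
-/

namespace Vale.Agent.Results.P058.A_CombinedGen

open Vale.Agent.P058

theorem result :
    (∀ (d : ℕ) (A B C D O : E d) (μ₁ μ₂ μ₃ μ₄ : ℝ), 0 < μ₁ → 0 < μ₂ → 0 < μ₃ → 0 < μ₄ →
      μ₁ + μ₂ = 1 → μ₃ + μ₄ = 1 → ∀ a b c e : ℕ, 0 < a → 0 < b → 0 < c → 0 < e →
      (a : ℝ) * (μ₂ * μ₄) = b * (μ₁ * μ₃) → (c : ℝ) * (μ₂ * μ₃) = e * (μ₁ * μ₄) →
      dist A O = dist B O → dist C O = dist B O → dist D O = dist B O →
      μ₁ • A + μ₂ • B = μ₃ • C + μ₄ • D →
      inner ℝ (A - C) (B - D) < 0 → inner ℝ (A - D) (B - C) < 0 →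
      IsRamsey ({A, B, C, D} : Set (E d)) ∧ IsSubtransitive ({A, B, C, D} : Set (E d))) ∧
    (∀ (u u' : ℝ) (s r : ℚ), 0 < u → u < 1 → u + u' = s → u * u' = r →
      ((0 < u' ∧ u' < 1) → IsRamsey (kite u) ∧ IsSubtransitive (kite u)) ∧
      (Irrational u → (IsSubtransitive (kite u) ↔ (0 < u' ∧ u' < 1)))) ∧
    (∀ (u : ℝ) (s r : ℚ), 0 < u → u < 1 → u ^ 2 - s * u + r = 0 →
      IsSubtransitive (kite u) → IsRamsey (kite u)) ∧
    (∀ u : ℝ, 0 < u → u < 1 → Transcendental ℚ u → ¬ IsSubtransitive (kite u)) ∧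
    (∀ (d : ℕ) (ι : Type) [Fintype ι] (p : ι → E d), Function.Injective p →
      ∀ (F : Subfield ℝ) (σ : F →+* ℝ) (μ : ι → F),
      ∑ i, μ i = 0 → ∑ i, (μ i : ℝ) • p i = 0 → ∀ i₀ : ι,
      σ (μ i₀) < 0 → (∀ i, i ≠ i₀ → 0 ≤ σ (μ i)) →
      ¬ IsSubtransitive (Set.range p)) :=
  ⟨fun _ A B C D O μ₁ μ₂ μ₃ μ₄ m1 m2 m3 m4 h12 h34 a b c e ha hb hc he hab hce hA hC hD hdep
      h1 h2 => quad_gen A B C D O μ₁ μ₂ μ₃ μ₄ m1 m2 m3 m4 h12 h34 a b c e ha hb hc he hab hce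
        hA hC hD hdep h1 h2,
    fun u u' s r h0 h1 hs hr =>
      ⟨fun h => kite_quad_pos u u' s r h0 h1 h.1 h.2 hs hr,
        fun hirr => kite_quad_iff u u' s r h0 h1 hs hr hirr⟩,
    fun u s r h0 h1 hroot hsub => kite_quad_lrw u s r h0 h1 hroot hsub,
    kite_not_subtransitive_of_transcendental,
    fun _ _ _ p hp F σ μ hsum hdep i₀ hneg hpos =>
      not_subtransitive_of_conjugate p hp F σ μ hsum hdep i₀ hneg hpos⟩

end Vale.Agent.Results.P058.A_CombinedGen
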