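import Vale.Agent.Lib.P058.Quad.Gen

/-!
# P058: cyclic quadrilaterals whose diagonal ratios `x`, `y` have `x y` and `x / y` rational
are Ramsey and subtransitive

Let `A, C, B, D` be the consecutive vertices of a cyclic quadrilateral (all four at the same
distance from `O`) whose diagonals `AB` and `CD` meet at the point
`μ₁ A + μ₂ B = μ₃ C + μ₄ D` (`μᵢ > 0`, `μ₁ + μ₂ = μ₃ + μ₄ = 1`).  Assume that
`μ₁ μ₃ / (μ₂ μ₄)` and `μ₁ μ₄ / (μ₂ μ₃)` are rational.  If moreover opposite sides, oriented along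
the boundary, make obtuse angles (`⟪A - C, B - D⟫ < 0` and `⟪A - D, B - C⟫ < 0`), then
`{A, B, C, D}` is Ramsey, and it is congruent to a subset of a finite transitive set.
-/

namespace Vale.Agent.Results.P058.A_CyclicQuadGen

open Vale.Agent.P058

theorem result {d : ℕ} (A B C D O : E d) (μ₁ μ₂ μ₃ μ₄ : ℝ) (m1 : 0 < μ₁) (m2 : 0 < μ₂)
    (m3 : 0 < μ₃) (m4 : 0 < μ₄) (h12 : μ₁ + μ₂ = 1) (h34 : μ₃ + μ₄ = 1)
    (a b c e : ℕ) (ha : 0 < a) (hb : 0 < b) (hc : 0 < c) (he : 0 < e)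
    (hab : (a : ℝ) * (μ₂ * μ₄) = b * (μ₁ * μ₃)) (hce : (c : ℝ) * (μ₂ * μ₃) = e * (μ₁ * μ₄))
    (hA : dist A O = dist B O) (hC : dist C O = dist B O) (hD : dist D O = dist B O)
    (hdep : μ₁ • A + μ₂ • B = μ₃ • C + μ₄ • D)
    (h1 : inner ℝ (A - C) (B - D) < 0) (h2 : inner ℝ (A - D) (B - C) < 0) :
    IsRamsey ({A, B, C, D} : Set (E d)) ∧ IsSubtransitive ({A, B, C, D} : Set (E d)) :=
  quad_gen A B C D O μ₁ μ₂ μ₃ μ₄ m1 m2 m3 m4 h12 h34 a b c e ha hb hc he hab hce hA hC hD hdep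
    h1 h2

end Vale.Agent.Results.P058.A_CyclicQuadGen
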