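import Vale.Agent.Lib.P058.Quad.Main

/-!
# P058: cyclic quadrilaterals whose diagonals cut each other in rational ratios are Ramsey

Let `A, C, B, D` be the consecutive vertices of a cyclic quadrilateral (all four at the same
distance from `O`) whose diagonals `AB` and `CD` meet at a point dividing each of them in a
rational ratio: `(p A + q B) / (p + q) = (r C + s D) / (r + s)` with positive integers
`p, q, r, s`.  If moreover opposite sides, oriented along the boundary, make obtuse angles
(`⟪A - C, B - D⟫ < 0` and `⟪A - D, B - C⟫ < 0`), then `{A, B, C, D}` is Ramsey.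
-/

namespace Vale.Agent.Results.P058.A_CyclicQuadrilaterals

open Vale.Agent.P058

theorem result {d : ℕ} (A B C D O : E d) (p q r s : ℕ) (hp : 0 < p) (hq : 0 < q)
    (hr : 0 < r) (hs : 0 < s)
    (hA : dist A O = dist B O) (hC : dist C O = dist B O) (hD : dist D O = dist B O)
    (hdep : ((p : ℝ) / (p + q)) • A + ((q : ℝ) / (p + q)) • B
      = ((r : ℝ) / (r + s)) • C + ((s : ℝ) / (r + s)) • D)
    (h1 : inner ℝ (A - C) (B - D) < 0) (h2 : inner ℝ (A - D) (B - C) < 0) :
    IsRamsey ({A, B, C, D} : Set (E d)) :=
  quad_ramsey A B C D O p q r s hp hq hr hs hA hC hD hdep h1 h2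

end Vale.Agent.Results.P058.A_CyclicQuadrilaterals
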