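import Vale.Agent.Lib.P058.Ramsey.Family

/-!
# P058: cycle-matching subsets of permutohedra are Ramsey

Fix real numbers `val 0, ..., val m` (`m ≥ 2`).  The set of all vectors obtained from
`(val 0, ..., val m)` by exchanging the two coordinates at the ends of each edge of a set of
pairwise disjoint edges of the cycle `0 - 1 - ... - m - 0` is Ramsey.
-/

namespace Vale.Agent.Results.P058.CycleMatchingRamsey

open Vale.Agent.P058

theorem result (m : ℕ) (hm : 2 ≤ m) (val : ℕ → ℝ) :
    IsRamsey {v : E (m + 1) | ∃ T : ℕ → Bool, Indep m T ∧ v = cycVec m val T} := by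
  have h : {v : E (m + 1) | ∃ T : ℕ → Bool, Indep m T ∧ v = cycVec m val T}
      = Set.range (fun T : {T : ℕ → Bool // Indep m T} => cycVec m val T.1) := by
    ext v
    constructor
    · rintro ⟨T, hT, rfl⟩
      exact ⟨⟨T, hT⟩, rfl⟩
    · rintro ⟨⟨T, hT⟩, rfl⟩
      exact ⟨T, hT, rfl⟩
  rw [h]
  apply ramsey_of_family
  intro r hr
  exact cycle_family_ramsey m hm (fun T : {T : ℕ → Bool // Indep m T} => T.1) (fun T => T.2) val r hr

end Vale.Agent.Results.P058.CycleMatchingRamsey
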