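import Vale.Agent.Lib.P058.KiteNeg

/-!
# P058: which right kites are subtransitive

The right kite `kite u` (`0 < u < 1`) is the cyclic quadrilateral formed by a diameter of the unit
circle and the chord perpendicular to it through the point dividing the diameter in the ratio
`u : 1 - u`.

* for rational `u` the kite is subtransitive (it is similar to four vertices of a permutohedron);
* for transcendental `u`, and for algebraic `u` having a real conjugate outside `[0,1]`, the kite
  is not subtransitive.
-/

namespace Vale.Agent.Results.P058.KiteClassification

open Vale.Agent.P058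

theorem result :
    (∀ u : ℚ, 0 < u → u < 1 → IsSubtransitive (kite (u : ℝ))) ∧
    (∀ u : ℝ, 0 < u → u < 1 → Transcendental ℚ u → ¬ IsSubtransitive (kite u)) ∧
    (∀ u u' : ℝ, 0 < u → u < 1 → IsAlgebraic ℚ u →
      Polynomial.aeval u' (minpoly ℚ u) = 0 → (u' < 0 ∨ 1 < u') →
      ¬ IsSubtransitive (kite u)) :=
  ⟨kite_subtransitive_rat, kite_not_subtransitive_of_transcendental,
    fun u u' h0 h1 ha hr hu' => kite_not_subtransitive_of_conjugate u u' h0 h1 ha hr hu'⟩

end Vale.Agent.Results.P058.KiteClassification
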