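import Vale.Agent.Lib.P058.Ramsey.KiteRamsey
import Vale.Agent.Lib.P058.KiteNeg

/-!
# P058: every right kite with rational parameter is Ramsey

The right kite `kite u` (`0 < u < 1`) is the cyclic quadrilateral formed by a diameter of the unit
circle and the chord perpendicular to it through the point dividing the diameter in the ratio
`u : 1 - u`.  For every rational `u` it is Ramsey (and subtransitive).

The proof is elementary: the kite with parameter `P / Q` is congruent to four vectors obtained
from one vector of length `4 P` by exchanging coordinates at the ends of pairwise disjoint edges
of a cycle, and every family of such vectors is Ramsey by an induction over the letters, one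
application of the finite Ramsey theorem for `q`-subsets per letter.
-/

namespace Vale.Agent.Results.P058.RationalKitesRamsey

open Vale.Agent.P058

theorem result :
    ∀ u : ℚ, 0 < u → u < 1 → IsRamsey (kite (u : ℝ)) ∧ IsSubtransitive (kite (u : ℝ)) :=
  fun u h0 h1 => ⟨kite_ramsey_rat u h0 h1, kite_subtransitive_rat u h0 h1⟩

end Vale.Agent.Results.P058.RationalKitesRamsey
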